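import Vale.Agent.P219.H381.Main2
import Vale.Agent.Results.P219.FinitePerimeterRigidity

open scoped Manifold ContDiff ENNReal
open MeasureTheory Set
open Vale.Agent.P255 (RMetric)
open Vale.Agent.P219.Co (E modelVol modelArea)
open Vale.Agent.P219.Mfd
open Vale.Agent.P219H381

namespace Vale.Agent.Results.P219.AbstractManifolds

/-- The generalized Cartan-Hadamard conjecture, with the equality case, for all complete simply
connected smooth Riemannian manifolds `(M, g)` of dimension `n ≥ 2` with `Sec ≤ K ≤ 0`: the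
Riemannian volume `μ` and, for every domain `Ω`, the Riemannian area `σ` of its boundary exist and
are unique, and `σ (∂Ω) ≥ I_K (μ Ω)`, with equality if and only if `Ω` is isometric to a geodesic
ball of the space form of curvature `K`. -/
theorem result {n : ℕ} (hn : 2 ≤ n) {K : ℝ} (hK : K ≤ 0)
    {M : Type} [TopologicalSpace M] [T2Space M] [SimplyConnectedSpace M] [ChartedSpace (E n) M]
    [IsManifold 𝓘(ℝ, E n) ∞ M] [MeasurableSpace M] [BorelSpace M] (g : RMetric (E n) M)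
    (hc : Complete g) (hs : SecLE g K) :
    (∃! μ : Measure M, IsVol g μ) ∧ ∀ Ω : Set M, IsDomain (E n) Ω →
      (∃! σ : Measure M, IsArea g Ω σ) ∧
      ∀ μ σ : Measure M, IsVol g μ → IsArea g Ω σ → ∃ r : ℝ, 0 ≤ r ∧
        μ Ω = ENNReal.ofReal (modelVol n K r) ∧ ENNReal.ofReal (modelArea n K r) ≤ σ univ ∧
        (σ univ = ENNReal.ofReal (modelArea n K r) ↔ IsometricToBall g K Ω r) := by
  obtain ⟨Ψ⟩ := exists_chart hK hc hs
  have := secondCountable_M Ψ
  refine ⟨⟨volM g Ψ, isVol_volM g Ψ, fun ν hν => isVol_unique g hν (isVol_volM g Ψ)⟩,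
    fun Ω hΩ => ?_⟩
  obtain ⟨D, hD⟩ := domain_pl Ψ hΩ
  refine ⟨⟨areaM g Ψ D, isArea_areaM g Ψ hD,
    fun ν hν => isArea_unique g hΩ hν (isArea_areaM g Ψ hD)⟩, fun μ σ hμ hσ => ?_⟩
  obtain ⟨⟨h0, h1⟩, h2, h3, -⟩ :=
    FinitePerimeterRigidity.result hn hK (pl g Ψ) (complete_pl hc Ψ) (secLE_pl hs Ψ)
  have hμ' : μ Ω = Vale.Agent.P219.Co.riemVol (pl g Ψ) D.carrier := by
    rw [isVol_unique g hμ (isVol_volM g Ψ), volM_apply g Ψ hΩ.isOpen.measurableSet, hD]
  have hσ' : σ univ = Vale.Agent.P219.Co.riemArea (pl g Ψ) D := by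
    rw [isArea_unique g hΩ hσ (isArea_areaM g Ψ hD), areaM_univ]
  have hDm : MeasurableSet D.carrier := by
    rw [hD]; exact measurable_Psi Ψ hΩ.isOpen.measurableSet
  have hfin : Vale.Agent.P219.Co.riemVol (pl g Ψ) D.carrier ≠ ⊤ := by
    obtain ⟨r₀, -, hv₀, -⟩ := h0 D
    rw [hv₀]
    exact ENNReal.ofReal_ne_top
  obtain ⟨r, hr, hv, ha, he⟩ := h2 D.carrier hDm hfin
  rw [h3 D] at ha he
  refine ⟨r, hr, by rw [hμ', hv], by rw [hσ']; exact ha, ?_⟩
  rw [hσ']
  constructor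
  · intro h
    exact isometric_of_pl g Ψ hD (h1 D r hr hv h)
  · intro h
    exact he.2 ⟨D, Filter.EventuallyEq.rfl, pl_of_isometric g Ψ hD h⟩

end Vale.Agent.Results.P219.AbstractManifolds
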